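import Vale.Agent.P157.Transition
import Vale.Agent.P157.Plant.Main
import Vale.Agent.P157.SpherePlant.Main

namespace Vale.Agent.Results.P157.AnnealedTransition

open Vale.Agent.P157 MeasureTheory Filter Topology

/-- For every bounded Borel `f`, on the cube and on the sphere, the pressure tends to the annealed
value when `α E[W log W]` stays below the rate function of the overlap, which is
`sup_r (r q / 2 - Ψ(r))` on the cube and `-(log (1 - q) + q) / 2` on the sphere, and is eventually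
bounded away below it otherwise. For `f = c₀ + log (1 - u)`, `u` the cosine transform of a measure
of mass `< 1`, the limit moreover exists on both spaces at every density and is bounded by the
replica-symmetric functional on the cube. -/
theorem result :
    (∀ f : ℝ → ℝ, Measurable f → (∃ B, ∀ x, |f x| ≤ B) → ∀ α : ℝ, 0 < α →
      ((∀ q : ℝ, 0 ≤ q → q < 1 → ∃ r : ℝ, 0 ≤ r ∧
            α * Plant.plantEnt (Plant.reweight f) q ≤ r * q / 2 - Plant.cubeInfo r) →
          Tendsto (fun N => pressure α f N (isingMeasure N)) atTop (𝓝 (α * Plant.annealedLog f))) ∧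
      ((∃ q : ℝ, 0 ≤ q ∧ q < 1 ∧ ∀ r : ℝ, 0 ≤ r →
            r * q / 2 - Plant.cubeInfo r < α * Plant.plantEnt (Plant.reweight f) q) →
          ∃ ε > 0, ∀ᶠ N in atTop,
            pressure α f N (isingMeasure N) + ε ≤ α * Plant.annealedLog f) ∧
      ((∀ q : ℝ, 0 ≤ q → q < 1 →
            α * Plant.plantEnt (Plant.reweight f) q ≤ -(Real.log (1 - q) + q) / 2) →
          Tendsto (fun N => pressure α f N (sphereMeasure N)) atTop (𝓝 (α * Plant.annealedLog f))) ∧
      ((∃ q : ℝ, 0 ≤ q ∧ q < 1 ∧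
            -(Real.log (1 - q) + q) / 2 < α * Plant.plantEnt (Plant.reweight f) q) →
          ∃ ε > 0, ∀ᶠ N in atTop,
            pressure α f N (sphereMeasure N) + ε ≤ α * Plant.annealedLog f)) ∧
    ∀ (c₀ : ℝ) (ν : Measure ℝ), ν Set.univ < 1 → ∀ α : ℝ, 0 < α →
      (∃ L, Tendsto (fun N => pressure α
          (fun t => c₀ + Real.log (1 - ∫ ξ, Real.cos (ξ * t) ∂ν)) N (sphereMeasure N))
          atTop (𝓝 L)) ∧
      (∃ L, Tendsto (fun N => pressure α
          (fun t => c₀ + Real.log (1 - ∫ ξ, Real.cos (ξ * t) ∂ν)) N (isingMeasure N))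
          atTop (𝓝 L) ∧
        (∀ q : ℝ, 0 ≤ q → q < 1 → L ≤ gardnerRS c₀ ν α q) ∧
        ((∀ᵐ ξ ∂ν, |ξ| ≤ 1) →
          α * ((∫ ξ, ξ ^ 2 * Real.exp (-ξ ^ 2 / 2) ∂ν)
              / (1 - ∫ ξ, Real.exp (-ξ ^ 2 / 2) ∂ν)) ^ 2 ≤ 1 →
          L = α * (c₀ + Real.log (1 - ∫ ξ, Real.exp (-ξ ^ 2 / 2) ∂ν))) ∧
        (1 < α * ((∫ ξ, ξ ^ 2 * Real.exp (-ξ ^ 2 / 2) ∂ν)
              / (1 - ∫ ξ, Real.exp (-ξ ^ 2 / 2) ∂ν)) ^ 2 →
          L < α * (c₀ + Real.log (1 - ∫ ξ, Real.exp (-ξ ^ 2 / 2) ∂ν)))) := by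
  refine ⟨fun f hf hfb α hα =>
    ⟨(Plant.annealed_phase hf hfb hα).1, (Plant.annealed_phase hf hfb hα).2,
      Sph.annealed_phase hf hfb hα⟩, ?_⟩
  intro c₀ ν hν α hα
  have : IsFiniteMeasure ν := ⟨hν.trans_le le_top⟩
  have hν' : ν.real Set.univ < 1 := by
    simpa [measureReal_def] using ENNReal.toReal_lt_toReal (measure_ne_top ν _) ENNReal.one_ne_top |>.2 hν
  refine ⟨sphere_limit c₀ ν hν' hα, ?_⟩
  obtain ⟨L, hL⟩ := ising_limit c₀ ν hν' hα
  refine ⟨L, hL, fun q hq0 hq => limit_le_gardner (ν := ν) (c₀ := c₀) hν' hα hq0 hq hL, fun hsupp h1 => ?_,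
    fun h1 => ?_⟩
  · refine le_antisymm ?_ (annealed_le_limit (ν := ν) (c₀ := c₀) hν' hsupp hα h1 hL)
    exact (limit_le_gardner (ν := ν) (c₀ := c₀) hν' hα le_rfl zero_lt_one hL).trans_eq (gardnerRS_zero c₀ α)
  · obtain ⟨q, hq0, hq, hlt⟩ := exists_gardner_lt c₀ hν' hα h1
    exact (limit_le_gardner (ν := ν) (c₀ := c₀) hν' hα hq0 hq hL).trans_lt hlt

end Vale.Agent.Results.P157.AnnealedTransition
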