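import Vale.Agent.P157.High.Main

/-!
Two-term high-density asymptotics of the pressure on the Ising cube.
-/

namespace Vale.Agent.Results.P157.HighDensityAsymptotics

open MeasureTheory ProbabilityTheory Filter Topology Vale.Agent.P157

theorem result :
    ∀ B : ℝ, ∃ K : ℝ, ∀ f : ℝ → ℝ, Measurable f → (∀ x, |f x| ≤ B) →
      ∃ G : ℕ → ℝ, (∀ N, IsGroundEnergy f N (G N)) ∧
        (∀ α : ℝ, 1 ≤ α → ∀ N : ℕ, 0 < N →
          |pressure α f N (isingMeasure N) - (⌊α * N⌋₊ : ℝ) / N * (∫ z, f z ∂gaussianReal 0 1)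
            - Real.sqrt ((⌊α * N⌋₊ : ℝ) / N) * G N| ≤ K * α ^ (1 / 3 : ℝ)) ∧
        ((∀ x, f (-x) = f x) → ∃ E : ℝ, Tendsto G atTop (𝓝 E) ∧
          ∀ α : ℝ, 1 ≤ α → ∀ᶠ N : ℕ in atTop,
            |pressure α f N (isingMeasure N) - α * (∫ z, f z ∂gaussianReal 0 1) - Real.sqrt α * E|
              ≤ (K + 1) * α ^ (1 / 3 : ℝ)) :=
  High.high_density

end Vale.Agent.Results.P157.HighDensityAsymptotics
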