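import Vale.Agent.P157.Rsb.Upper

/-!
Failure of the replica-symmetric formula at high density on the Ising cube.
-/

namespace Vale.Agent.Results.P157.ReplicaSymmetryBreaking

open MeasureTheory Filter Set Vale.Agent.P157

theorem result :
    ∀ (f f₁ f₂ f₃ : ℝ → ℝ) (C : ℝ),
      (∀ x, HasDerivAt f (f₁ x) x) → (∀ x, HasDerivAt f₁ (f₂ x) x) →
      (∀ x, HasDerivAt f₂ (f₃ x) x) →
      (∀ x, |f x| ≤ C ∧ |f₁ x| ≤ C ∧ |f₂ x| ≤ C ∧ |f₃ x| ≤ C) →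
      (∀ x, f (-x) = f x) → (∃ a < (1 / 2 : ℝ), ∀ x, f₂ x + f₁ x ^ 2 ≤ a) →
      (∃ x, f₁ x ≠ 0) →
      ∀ᶠ α : ℝ in atTop, ∃ ε > 0, ∀ᶠ N : ℕ in atTop, ∀ q ∈ Ico (0 : ℝ) 1,
        pressure α f N (isingMeasure N) + ε ≤ rsValue α f f₁ q :=
  fun _ _ _ _ _ d0 d1 d2 hb he ⟨_, ha, hc⟩ hne =>
    Rsb.rs_fails ⟨d0, d1, d2, hb, he, hc, ha⟩ hne

end Vale.Agent.Results.P157.ReplicaSymmetryBreaking
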