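import Vale.Agent.P157.Small.Ising

namespace Vale.Agent.Results.P157.SmallCouplingLimit

open Vale.Agent.P157 MeasureTheory Filter Topology

/-- Weakly coupled even potentials of either sign: the pressure on the cube converges at every
density. -/
theorem result :
    ∀ (ν₁ ν₂ : Measure ℝ) [IsFiniteMeasure ν₁] [IsFiniteMeasure ν₂],
      Integrable (fun ξ => ξ ^ 2) ν₁ → Integrable (fun ξ => ξ ^ 2) ν₂ →
      (∫ ξ, ξ ^ 2 * Real.exp (-ξ ^ 2 / 2) ∂ν₁) ≠ ∫ ξ, ξ ^ 2 * Real.exp (-ξ ^ 2 / 2) ∂ν₂ →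
      ∀ t : ℝ, t ≠ 0 → |t| * (ν₁.real Set.univ + ν₂.real Set.univ) ≤ 1 / 4 →
        108 * |t| * (ν₁.real Set.univ + ν₂.real Set.univ)
            * ((∫ ξ, ξ ^ 2 ∂ν₁) + ∫ ξ, ξ ^ 2 ∂ν₂) ^ 2
          ≤ ((∫ ξ, ξ ^ 2 * Real.exp (-ξ ^ 2 / 2) ∂ν₁)
              - ∫ ξ, ξ ^ 2 * Real.exp (-ξ ^ 2 / 2) ∂ν₂) ^ 2 →
        ∀ (c₀ α : ℝ), 0 < α →
          ∃ L, Tendsto (fun N => pressure α (fun x => c₀ + Real.log (1 + t *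
            ((∫ ξ, Real.cos (ξ * x) ∂ν₁) - ∫ ξ, Real.cos (ξ * x) ∂ν₂))) N (isingMeasure N))
            atTop (𝓝 L) :=
  fun ν₁ ν₂ _ _ h₁ h₂ hb t ht0 ht hc c₀ _ hα =>
    Small.small_limit ν₁ ν₂ h₁ h₂ hb t ht0 ht hc c₀ hα

end Vale.Agent.Results.P157.SmallCouplingLimit
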